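import Vale.Agent.P007.H11.RLP
import Vale.Agent.P007.H11.RComp

open NumberField

namespace Vale.Agent.P007.H11

open Vale.Agent.P007 Vale.Agent.P007.Z

/-- Landau-Page for real quadratic fields: of two different ones, at most one has a Siegel zero at
the scale `ℓ`. -/
theorem landau_page : ∃ B ℓ₀ : ℝ, ∀ (E E' : IntermediateField ℚ ℝ) [NumberField E]
    [NumberField E'], Module.finrank ℚ E = 2 → Module.finrank ℚ E' = 2 → E ≠ E' →
    ∀ ℓ : ℝ, ℓ₀ ≤ ℓ → Real.log |(discr E : ℝ)| ≤ ℓ → Real.log |(discr E' : ℝ)| ≤ ℓ →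
    (∀ η : ℝ, 0 < η → η ≤ 1 →
      -Real.log η - B ≤ Del E (1 : DirichletCharacter ℂ 1) ℓ η) ∨
    (∀ η : ℝ, 0 < η → η ≤ 1 →
      -Real.log η - B ≤ Del E' (1 : DirichletCharacter ℂ 1) ℓ η) :=
  landau_page_of exists_compositum

end Vale.Agent.P007.H11
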